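import Mathlib

/-!
# P271: numerics of the block dichotomy

`N` = Hilbert function of the ambient variety, `N M / M ^ n → v > 0`.
* `block_num`: the block bound `N (m + J a) / (J + 1)` with `a ≤ η m`, `J = m / a`, is at most
  `2 ^ (n + 2) η N m`.
* `caseB_num`: if the whole of `V a`, `a = ⌊η m⌋`, restricts injectively to `W` of dimension
  `d < n`, the counting inequality gives more than `B m N m`.
-/

set_option linter.all false

open Filter Topology Finset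

namespace Vale.Agent.P271.H987

/-- two sided bounds for large `M` -/
theorem exists_bounds {n : ℕ} {N : ℕ → ℕ} {v : ℝ} (hv : 0 < v)
    (hN : Tendsto (fun M : ℕ => (N M : ℝ) / (M : ℝ) ^ n) atTop (𝓝 v)) :
    ∃ M0 : ℕ, 1 ≤ M0 ∧ ∀ M, M0 ≤ M → v / 2 * (M : ℝ) ^ n ≤ N M ∧ (N M : ℝ) ≤ 2 * v * (M : ℝ) ^ n := by
  have h1 : ∀ᶠ M : ℕ in atTop, v / 2 < (N M : ℝ) / (M : ℝ) ^ n :=
    hN.eventually (lt_mem_nhds (by linarith))
  have h2 : ∀ᶠ M : ℕ in atTop, (N M : ℝ) / (M : ℝ) ^ n < 2 * v :=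
    hN.eventually (gt_mem_nhds (by linarith))
  obtain ⟨M0, h⟩ := eventually_atTop.1 (h1.and h2)
  refine ⟨max M0 1, le_max_right _ _, ?_⟩
  intro M hM
  have hM1 : 0 < M := lt_of_lt_of_le Nat.one_pos ((le_max_right _ _).trans hM)
  have hp : (0 : ℝ) < (M : ℝ) ^ n := by positivity
  obtain ⟨h3, h4⟩ := h M ((le_max_left _ _).trans hM)
  rw [lt_div_iff₀ hp] at h3
  rw [div_lt_iff₀ hp] at h4
  exact ⟨h3.le, h4.le⟩

/-- the block bound is small -/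
theorem block_num {n : ℕ} {N : ℕ → ℕ} {v : ℝ} (hv : 0 < v)
    (hN : Tendsto (fun M : ℕ => (N M : ℝ) / (M : ℝ) ^ n) atTop (𝓝 v)) :
    ∃ m0 : ℕ, ∀ m, m0 ≤ m → ∀ (η : ℝ), 0 < η → ∀ a : ℕ, 0 < a → (a : ℝ) ≤ η * m →
      ∀ D : ℝ, (((m / a : ℕ) : ℝ) + 1) * D ≤ N (m + (m / a) * a) →
        D ≤ 2 ^ (n + 2) * η * N m := by
  obtain ⟨M0, hM0, h⟩ := exists_bounds hv hN
  refine ⟨M0, ?_⟩
  intro m hm η hη a ha ham D hD
  have hm1 : 0 < m := by omega
  have hmR : (0 : ℝ) < m := by exact_mod_cast hm1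
  have haR : (0 : ℝ) < a := by exact_mod_cast ha
  have hle : m + (m / a) * a ≤ 2 * m := by
    have := Nat.div_mul_le_self m a
    omega
  have h1 := (h (m + (m / a) * a) (by omega)).2
  have h2 := (h m hm).1
  have h3 : (((m + (m / a) * a : ℕ) : ℝ)) ^ n ≤ (2 * (m : ℝ)) ^ n := by
    apply pow_le_pow_left₀ (Nat.cast_nonneg _)
    exact_mod_cast hle
  have h4 : (m : ℝ) / a < ((m / a : ℕ) : ℝ) + 1 := by
    rw [div_lt_iff₀ haR]
    have := Nat.lt_div_mul_add (a := m) (b := a) ha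
    have h5 : m < (m / a) * a + a := by
      rw [mul_comm]
      have := Nat.lt_mul_div_succ m ha
      rw [Nat.mul_succ] at this
      exact this
    have h6 : (m : ℝ) < ((m / a : ℕ) : ℝ) * a + a := by exact_mod_cast h5
    linarith
  have h7 : 1 / η ≤ (m : ℝ) / a := by
    rw [div_le_div_iff₀ hη haR]
    linarith
  have h8 : 1 / η ≤ ((m / a : ℕ) : ℝ) + 1 := by linarith
  rcases le_or_gt D 0 with hD0 | hD0
  · have : 0 ≤ 2 ^ (n + 2) * η * (N m : ℝ) := by positivity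
    linarith
  have h9 : 1 / η * D ≤ 2 * v * (2 * (m : ℝ)) ^ n := by
    calc 1 / η * D ≤ (((m / a : ℕ) : ℝ) + 1) * D := mul_le_mul_of_nonneg_right h8 hD0.le
      _ ≤ N (m + (m / a) * a) := hD
      _ ≤ 2 * v * ((m + (m / a) * a : ℕ) : ℝ) ^ n := h1
      _ ≤ 2 * v * (2 * (m : ℝ)) ^ n := by
        apply mul_le_mul_of_nonneg_left h3 (by positivity)
  have h10 : D ≤ η * (2 * v * (2 * (m : ℝ)) ^ n) := by
    rw [one_div, inv_mul_le_iff₀ hη] at h9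
    exact h9
  calc D ≤ η * (2 * v * (2 * (m : ℝ)) ^ n) := h10
    _ = 2 ^ (n + 2) * η * (v / 2 * (m : ℝ) ^ n) := by
      rw [mul_pow, pow_add]
      ring
    _ ≤ 2 ^ (n + 2) * η * N m := by
      apply mul_le_mul_of_nonneg_left h2 (by positivity)

/-- `(c m ^ n) ^ (1 / d) ≥ c ^ (1 / (n - 1)) m ^ (1 / (n - 1)) m` for `d < n` -/
theorem root_num {n d : ℕ} (hn : 1 < n) (hd : 1 ≤ d) (hdn : d < n) {c : ℝ} (hc0 : 0 < c) {m : ℝ}
    (hmR : 1 ≤ m) (g3 : 1 ≤ m * c) {Na : ℝ} (hNa : c * m ^ n ≤ Na) :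
    c ^ ((1 : ℝ) / (n - 1)) * (m ^ ((1 : ℝ) / (n - 1)) * m) ≤ Na ^ ((1 : ℝ) / d) := by
  have hmR0 : 0 < m := by linarith
  have hn1 : (0 : ℝ) < (n : ℝ) - 1 := by
    have : (1 : ℝ) < n := by exact_mod_cast hn
    linarith
  have hcm1 : 1 ≤ c * m ^ n := by
    have h1 : m ≤ m ^ n := le_self_pow₀ hmR (by omega)
    have h2 : m * c ≤ c * m ^ n := by
      rw [mul_comm]
      exact mul_le_mul_of_nonneg_left h1 hc0.le
    linarith
  have hdR : (1 : ℝ) ≤ d := by exact_mod_cast hd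
  have hdn' : (d : ℝ) ≤ (n : ℝ) - 1 := by
    have : (d : ℝ) + 1 ≤ n := by exact_mod_cast hdn
    linarith
  calc c ^ ((1 : ℝ) / (n - 1)) * (m ^ ((1 : ℝ) / (n - 1)) * m)
      = (c * m ^ n) ^ ((1 : ℝ) / (n - 1)) := by
        rw [Real.mul_rpow hc0.le (by positivity), ← Real.rpow_natCast, ← Real.rpow_mul hmR0.le]
        congr 1
        conv_lhs => rw [← Real.rpow_one m, ← Real.rpow_mul hmR0.le, ← Real.rpow_add hmR0]
        congr 1
        field_simp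
        ring
    _ ≤ (c * m ^ n) ^ ((1 : ℝ) / d) := by
        apply Real.rpow_le_rpow_of_exponent_le hcm1
        exact one_div_le_one_div_of_le (by linarith) hdn'
    _ ≤ Na ^ ((1 : ℝ) / d) := Real.rpow_le_rpow (by positivity) hNa (by positivity)

theorem final_num {n d : ℕ} (hd : 1 ≤ d) (hdn : d < n) {B v C1 P m Nm : ℝ} (hB : 0 ≤ B)
    (hv : 0 < v) (hC1 : 0 < C1) (hP : 0 < P) (hm : 1 ≤ m)
    (hNm0 : 0 ≤ Nm) (hNm : Nm ≤ 2 * v * m ^ n)
    (g1 : (2 * (B + n) * (2 * v)) * 2 ^ n * 2 ≤ P * (v * C1)) :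
    B * (m * Nm) + (d + 1) * Nm ≤ C1 * (P * m) * (v / 2 * (m / 2) ^ n) := by
  have hm0 : 0 < m := by linarith
  have hnR : (0 : ℝ) ≤ n := Nat.cast_nonneg _
  have hdn' : (d : ℝ) + 1 ≤ n := by exact_mod_cast hdn
  have h1 : B * (m * Nm) + (d + 1) * Nm ≤ (B + n) * m * Nm := by
    have h4 : ((d : ℝ) + 1) * Nm ≤ (n * m) * Nm := by
      apply mul_le_mul_of_nonneg_right _ hNm0
      calc (d : ℝ) + 1 ≤ n := hdn'
        _ = n * 1 := (mul_one _).symm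
        _ ≤ n * m := mul_le_mul_of_nonneg_left hm hnR
    calc B * (m * Nm) + (d + 1) * Nm ≤ B * (m * Nm) + (n * m) * Nm := by linarith
      _ = (B + n) * m * Nm := by ring
  have h2 : (B + n) * m * Nm ≤ (B + n) * m * (2 * v * m ^ n) :=
    mul_le_mul_of_nonneg_left hNm (by positivity)
  have h3 : (B + n) * m * (2 * v * m ^ n) =
      ((B + n) * (2 * v) * 2 ^ n * 2) * (m * m ^ n / (2 ^ n * 2)) := by
    field_simp
  have h4 : C1 * (P * m) * (v / 2 * (m / 2) ^ n) = (P * (v * C1)) * (m * m ^ n / (2 ^ n * 2)) := by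
    rw [div_pow]
    field_simp
  rw [h3] at h2
  rw [h4]
  refine (h1.trans h2).trans ?_
  apply mul_le_mul_of_nonneg_right _ (by positivity)
  have h5 : 0 ≤ (B + n) * (2 * v) * 2 ^ n * 2 := by positivity
  have h6 : (2 * (B + n) * (2 * v)) * 2 ^ n * 2 = 2 * ((B + n) * (2 * v) * 2 ^ n * 2) := by ring
  linarith

/-- the counting inequality when `V ⌊η m⌋` restricts injectively to `W`, `dim W = d < n` -/
theorem caseB_num {n : ℕ} {N : ℕ → ℕ} {v : ℝ} (hv : 0 < v)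
    (hN : Tendsto (fun M : ℕ => (N M : ℝ) / (M : ℝ) ^ n) atTop (𝓝 v)) (r1 : ℕ) {η : ℝ}
    (hη : 0 < η) (hη1 : η ≤ 1 / 4) {B : ℝ} (hB : 0 ≤ B) :
    ∃ m0 : ℕ, ∀ m, m0 ≤ m → ∀ d : ℕ, 1 ≤ d → d < n →
      B * (m * N m) ≤ (d : ℝ) * ((d.factorial : ℝ) ^ ((1 : ℝ) / d)) *
        ((N ⌊η * m⌋₊ : ℝ) ^ ((1 : ℝ) / d)) *
        (∑ j ∈ range (m / (⌊η * m⌋₊ + r1)), (N (m - (j + 1) * (⌊η * m⌋₊ + r1)) : ℝ)) -
          (d + 1) * N m := by
  by_cases hn : n ≤ 1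
  · exact ⟨0, fun m _ d h1 h2 => by omega⟩
  push Not at hn
  obtain ⟨M0, hM0, h⟩ := exists_bounds hv hN
  set c : ℝ := v / 2 * (η / 2) ^ n with hc
  have hc0 : 0 < c := by positivity
  have hn1 : (0 : ℝ) < (n : ℝ) - 1 := by
    have : (1 : ℝ) < n := by exact_mod_cast hn
    linarith
  -- conditions on `m`
  have e1 : ∀ᶠ m : ℕ in atTop, (2 * (B + n) * (2 * v)) * 2 ^ n * 2 / (v * c ^ ((1 : ℝ) / (n - 1))) ≤
      (m : ℝ) ^ ((1 : ℝ) / (n - 1)) := by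
    have : Tendsto (fun m : ℕ => (m : ℝ) ^ ((1 : ℝ) / (n - 1))) atTop atTop :=
      (tendsto_rpow_atTop (by positivity)).comp tendsto_natCast_atTop_atTop
    exact this.eventually_ge_atTop _
  have e2 : ∀ᶠ m : ℕ in atTop, (max (2 * (M0 : ℝ) / η) (max (2 / η) (4 * ((r1 : ℝ) + M0 + 1)))) ≤
      (m : ℝ) := tendsto_natCast_atTop_atTop.eventually_ge_atTop _
  have e3 : ∀ᶠ m : ℕ in atTop, 1 / c ≤ (m : ℝ) := tendsto_natCast_atTop_atTop.eventually_ge_atTop _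
  have e4 : ∀ᶠ m : ℕ in atTop, 1 ≤ m := eventually_ge_atTop 1
  obtain ⟨m0, hm0⟩ := eventually_atTop.1 (((e1.and e2).and e3).and e4)
  refine ⟨m0, ?_⟩
  intro m hm d hd hdn
  obtain ⟨⟨⟨g1, g2⟩, g3⟩, g4⟩ := hm0 m hm
  have hmR : (1 : ℝ) ≤ m := by exact_mod_cast g4
  have hmR0 : (0 : ℝ) < m := by linarith
  set a := ⌊η * m⌋₊ with ha
  have hηm : 0 ≤ η * m := by positivity
  have ha1 : (a : ℝ) ≤ η * m := Nat.floor_le hηm
  have ha2 : η * m < a + 1 := Nat.lt_floor_add_one _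
  have g21 : 2 * (M0 : ℝ) / η ≤ m := (le_max_left _ _).trans g2
  have g22 : 2 / η ≤ m := ((le_max_left _ _).trans (le_max_right _ _)).trans g2
  have g23 : 4 * ((r1 : ℝ) + M0 + 1) ≤ m := ((le_max_right _ _).trans (le_max_right _ _)).trans g2
  rw [div_le_iff₀ hη] at g21 g22
  have ha3 : η / 2 * m ≤ a := by linarith
  have hM0R : (0 : ℝ) ≤ M0 := Nat.cast_nonneg _
  have hr1R : (0 : ℝ) ≤ r1 := Nat.cast_nonneg _
  have haM0 : M0 ≤ a := by
    have : (M0 : ℝ) ≤ a := by linarith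
    exact_mod_cast this
  have ha4 : η * m ≤ 1 / 4 * m := mul_le_mul_of_nonneg_right hη1 hmR0.le
  have hρ : (((a + r1 : ℕ) : ℝ)) ≤ m / 2 := by
    push_cast
    linarith
  have hρ' : 2 * (a + r1) ≤ m := by
    have h1 : 2 * ((a + r1 : ℕ) : ℝ) ≤ m := by linarith
    exact_mod_cast h1
  have hρ0 : 0 < a + r1 := by omega
  have hk : 1 ≤ m / (a + r1) := by
    rw [Nat.one_le_div_iff hρ0]
    omega
  -- the first term of the sum
  have hsub : M0 ≤ m - (0 + 1) * (a + r1) := by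
    have h2 : 2 * M0 ≤ m := by
      have : 2 * (M0 : ℝ) ≤ m := by linarith
      exact_mod_cast this
    omega
  have hterm : v / 2 * ((m : ℝ) / 2) ^ n ≤ (N (m - (0 + 1) * (a + r1)) : ℝ) := by
    refine le_trans ?_ (h _ hsub).1
    apply mul_le_mul_of_nonneg_left _ (by positivity)
    apply pow_le_pow_left₀ (by positivity)
    have h1 : (m : ℝ) = ((m - (0 + 1) * (a + r1) : ℕ) : ℝ) + ((a + r1 : ℕ) : ℝ) := by
      rw [← Nat.cast_add]
      congr 1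
      omega
    linarith
  have hsum : v / 2 * ((m : ℝ) / 2) ^ n ≤
      ∑ j ∈ range (m / (a + r1)), (N (m - (j + 1) * (a + r1)) : ℝ) := by
    refine hterm.trans ?_
    exact Finset.single_le_sum (f := fun j => (N (m - (j + 1) * (a + r1)) : ℝ))
      (fun j _ => Nat.cast_nonneg _) (Finset.mem_range.2 hk)
  -- the root
  have hNa : c * (m : ℝ) ^ n ≤ N a := by
    refine le_trans ?_ (h a haM0).1
    rw [hc, mul_assoc, ← mul_pow]
    apply mul_le_mul_of_nonneg_left _ (by positivity)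
    exact pow_le_pow_left₀ (by positivity) ha3 _
  rw [div_le_iff₀ hc0] at g3
  have hroot := root_num hn hd hdn hc0 hmR g3 hNa
  have hdR : (1 : ℝ) ≤ d := by exact_mod_cast hd
  have hfac : (1 : ℝ) ≤ (d : ℝ) * ((d.factorial : ℝ) ^ ((1 : ℝ) / d)) := by
    have h1 : (1 : ℝ) ≤ (d.factorial : ℝ) ^ ((1 : ℝ) / d) := by
      apply Real.one_le_rpow _ (by positivity)
      exact_mod_cast d.factorial_pos
    calc (1 : ℝ) = 1 * 1 := (mul_one _).symm
      _ ≤ _ := mul_le_mul hdR h1 zero_le_one (by linarith)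
  have hNm := (h m (by
    have : (M0 : ℝ) ≤ m := by linarith
    exact_mod_cast this)).2
  have hC10 : 0 < c ^ ((1 : ℝ) / (n - 1)) := Real.rpow_pos_of_pos hc0 _
  have hP0 : 0 < (m : ℝ) ^ ((1 : ℝ) / (n - 1)) := Real.rpow_pos_of_pos hmR0 _
  rw [div_le_iff₀ (by positivity)] at g1
  have hfin := final_num hd hdn hB hv hC10 hP0 hmR (Nat.cast_nonneg (N m)) hNm g1
  have hprod : c ^ ((1 : ℝ) / (n - 1)) * ((m : ℝ) ^ ((1 : ℝ) / (n - 1)) * m) *
      (v / 2 * ((m : ℝ) / 2) ^ n) ≤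
      (d : ℝ) * ((d.factorial : ℝ) ^ ((1 : ℝ) / d)) * ((N a : ℝ) ^ ((1 : ℝ) / d)) *
        (∑ j ∈ range (m / (a + r1)), (N (m - (j + 1) * (a + r1)) : ℝ)) := by
    have h1 : c ^ ((1 : ℝ) / (n - 1)) * ((m : ℝ) ^ ((1 : ℝ) / (n - 1)) * m) ≤
        (d : ℝ) * ((d.factorial : ℝ) ^ ((1 : ℝ) / d)) * ((N a : ℝ) ^ ((1 : ℝ) / d)) := by
      refine hroot.trans ?_
      calc (N a : ℝ) ^ ((1 : ℝ) / d) = 1 * (N a : ℝ) ^ ((1 : ℝ) / d) := (one_mul _).symm
        _ ≤ _ := mul_le_mul_of_nonneg_right hfac (by positivity)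
    exact mul_le_mul h1 hsum (by positivity) (by positivity)
  linarith

end Vale.Agent.P271.H987
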