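import Vale.Agent.P271.H987.Block
import Vale.Agent.P271.H987.BlockNum

/-!
# P271, row B3a (BLOCKS)

For the filtration of `V T` by a multiplicative weight `v` with centre `W`, `1 ≤ dim W = d < n`:
for all large `T` (uniformly in everything) either every graded piece has dimension at most
`δ N T`, or the total order of vanishing `E` is at least `B T N T`.
-/

set_option linter.all false

open Filter Topology Finset Module

namespace Vale.Agent.P271.H987

open Vale.Agent.P271.Filt Vale.Agent.P271.Filt.Wt Vale.Agent.P271.H207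

universe u w

theorem finrank_gr_eq_card {K : Type*} [Field K] {V : Type*} [AddCommGroup V] [Module K V]
    [FiniteDimensional K V] {F : Wt K V} {ι : Type*} [Fintype ι] {b : Basis ι K V}
    (hb : F.Adapted b) (a : ℝ) [DecidablePred fun i => F.w (b i) = a] :
    ((finrank K (F.sub a) : ℝ) - finrank K (F.subGt a)) =
      ((Finset.univ.filter (fun i => F.w (b i) = a)).card : ℝ) := by
  classical
  rw [finrank_sub hb, finrank_subGt hb]
  have h1 : (Finset.univ.filter (fun i => a ≤ F.w (b i))).card =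
      (Finset.univ.filter (fun i => F.w (b i) = a)).card +
        (Finset.univ.filter (fun i => a < F.w (b i))).card := by
    rw [← Finset.card_union_of_disjoint]
    · congr 1
      ext i
      simp only [Finset.mem_filter, Finset.mem_univ, true_and, Finset.mem_union]
      rw [le_iff_eq_or_lt, eq_comm]
    · rw [Finset.disjoint_left]
      intro i hi hi'
      rw [Finset.mem_filter] at hi hi'
      rw [hi.2] at hi'
      exact lt_irrefl _ hi'.2
  rw [h1]
  push_cast
  ring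

/-- **BLOCKS.** -/
theorem blocks {n : ℕ} {N : ℕ → ℕ} {v : ℝ} (hv : 0 < v)
    (hN : Tendsto (fun M : ℕ => (N M : ℝ) / (M : ℝ) ^ n) atTop (𝓝 v)) (r1 a0 : ℕ) {δ : ℝ}
    (hδ : 0 < δ) {B : ℝ} (hB : 0 ≤ B) :
    ∃ T0 : ℕ, ∀ T, T0 ≤ T →
      ∀ (K : Type u) (A : Type w) [Field K] [CommRing A] [IsDomain A] [Algebra K A]
        (V : ℕ → Submodule K A) (hfin : ∀ M, FiniteDimensional K (V M))
        (mul_mem : ∀ M M' : ℕ, ∀ g ∈ V M', ∀ s ∈ V M, g * s ∈ V (M + M'))
        (F : ∀ M, Wt K (V M)),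
        (∀ (M M' : ℕ) (g : V M') (s : V M), g ≠ 0 → s ≠ 0 →
          (F (M + M')).w ⟨(g : A) * s, mul_mem M M' g g.2 s s.2⟩ = (F M).w s + (F M').w g) →
        (∀ (M : ℕ) (x : V M), x ≠ 0 → 0 ≤ (F M).w x) →
        (∀ M, finrank K (V M) = N M) →
        (∀ a, a0 ≤ a → ∃ y : V a, y ≠ 0 ∧ (F a).w y = 0) →
      ∀ d : ℕ, 1 ≤ d → d < n → ∀ NW : ℕ → ℕ,
        (∀ a, (∀ y : V a, y ≠ 0 → (F a).w y = 0) → NW a = N a) →
      ∀ E : ℝ,
        (∀ r k : ℕ, k * (r + r1) ≤ T →
          (d : ℝ) * ((d.factorial : ℝ) ^ ((1 : ℝ) / d)) * ((NW r : ℝ) ^ ((1 : ℝ) / d)) *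
            (∑ j ∈ range k, (N (T - (j + 1) * (r + r1)) : ℝ)) - (d + 1) * N T ≤ E) →
        (∀ t : ℝ, (finrank K ((F T).sub t) : ℝ) - finrank K ((F T).subGt t) ≤ δ * N T) ∨
          B * (T * N T) ≤ E := by
  set η : ℝ := min (1 / 4) (δ / 2 ^ (n + 2)) with hη
  have hη0 : 0 < η := lt_min (by norm_num) (by positivity)
  have hη1 : η ≤ 1 / 4 := min_le_left _ _
  have hη2 : 2 ^ (n + 2) * η ≤ δ := by
    have h1 : η ≤ δ / 2 ^ (n + 2) := min_le_right _ _
    rw [le_div_iff₀ (by positivity)] at h1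
    linarith
  obtain ⟨m1, h1⟩ := block_num hv hN
  obtain ⟨m2, h2⟩ := caseB_num hv hN r1 hη0 hη1 hB
  obtain ⟨m3, h3⟩ := exists_nat_ge (((a0 : ℝ) + 1) / η)
  refine ⟨max (max m1 m2) m3, ?_⟩
  intro T hT K A _ _ _ _ V hfin mul_mem F hmul hnn hrank hbp d hd hdn NW hNW E hE
  have hT1 : m1 ≤ T := (le_max_left _ _).trans ((le_max_left _ _).trans hT)
  have hT2 : m2 ≤ T := (le_max_right _ _).trans ((le_max_left _ _).trans hT)
  have hT3 : m3 ≤ T := (le_max_right _ _).trans hT
  set a : ℕ := ⌊η * T⌋₊ with ha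
  have haT : (a : ℝ) ≤ η * T := Nat.floor_le (by positivity)
  have haa : a0 + 1 ≤ a := by
    apply Nat.le_floor
    have h4 : ((a0 : ℝ) + 1) / η ≤ T := h3.trans (by exact_mod_cast hT3)
    rw [div_le_iff₀ hη0] at h4
    push_cast
    linarith
  by_cases hcase : ∃ y : V a, y ≠ 0 ∧ 0 < (F a).w y
  · left
    obtain ⟨y, hy, hyw⟩ := hcase
    obtain ⟨y0, hy0, hy0w⟩ := hbp a (by omega)
    intro t
    have h5 := block_bound_pow V hfin mul_mem F hmul hy hy0 hyw hy0w T (T / a) t
    rw [hrank] at h5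
    have h6 := h1 T hT1 η hη0 a (by omega) haT _ h5
    refine h6.trans ?_
    exact mul_le_mul_of_nonneg_right hη2 (Nat.cast_nonneg _)
  · right
    push Not at hcase
    have h7 : NW a = N a := hNW a fun y hy => le_antisymm (hcase y hy) (hnn a y hy)
    have h8 := h2 T hT2 d hd hdn
    have h9 := hE a (T / (a + r1)) (Nat.div_mul_le_self _ _)
    rw [h7] at h9
    exact h8.trans h9

end Vale.Agent.P271.H987
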