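import Mathlib

/-!
# P271: the weighted cone model of a polarised smooth projective variety

`(X, L)` smooth projective variety over `ℂ` of dimension `n` with an ample line bundle `L`.
Its section ring `R = ⨁ H⁰(X, kL)` is finitely generated; homogeneous generators `x₁,…,x_N` of
degrees `w₁,…,w_N ≥ 1` embed `Spec R` as a closed weighted cone `Y ⊆ ℂ^N`, and `U = Y ∖ {0}` is the
complement of the zero section in the total space of `L⁻¹`: a complex submanifold of dimension
`n+1`, with the free action `t·y = (t^{w_i} y_i)` of `ℂˣ`, `X = U/ℂˣ`, `L = 𝒪(1)`.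
Conversely every such cone gives a polarised manifold.  A section of `K_X + mL` is the same as a
holomorphic `(n+1)`-form on `U` which is homogeneous of degree `m` (`K_U` is the pull back of `K_X`).
-/

open MvPolynomial

namespace Vale.Agent.P271.Cone

/-- The weighted action of `t : ℂ` on `ℂ^N` with weights `w`. -/
def act {N : ℕ} (w : Fin N → ℕ) (t : ℂ) (y : Fin N → ℂ) : Fin N → ℂ := fun i => t ^ w i * y i

/-- The differential of the polynomial `P` at the point `y`, applied to the vector `v`. -/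
noncomputable def dpoly {N : ℕ} (P : MvPolynomial (Fin N) ℂ) (y v : Fin N → ℂ) : ℂ :=
  ∑ i, eval y (pderiv i P) * v i

/-- A smooth connected projective variety `X` of dimension `n` with an ample line bundle `L`,
presented by the (weighted homogeneous) affine cone of a generating system of sections of powers of
`L`. -/
structure PolarizedManifold (n : ℕ) where
  /-- number of homogeneous coordinates -/
  N : ℕ
  /-- their degrees: `x_i` is a section of `w_i L` -/
  w : Fin N → ℕ
  w_pos : ∀ i, 0 < w i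
  /-- the homogeneous equations -/
  eqs : Set (MvPolynomial (Fin N) ℂ)
  homogeneous : ∀ P ∈ eqs, ∃ d : ℕ, IsWeightedHomogeneous w P d
  /-- `U = Y ∖ {0}` is a complex submanifold of dimension `n+1`: near each of its points `Y` is the
  zero set of `N-(n+1)` polynomials vanishing on `Y`, with linearly independent differentials. -/
  smooth : ∀ y : Fin N → ℂ, y ≠ 0 → (∀ P ∈ eqs, eval y P = 0) →
    ∃ (r : ℕ) (P : Fin r → MvPolynomial (Fin N) ℂ), r + (n + 1) = N ∧
      (∀ j, ∀ x : Fin N → ℂ, (∀ Q ∈ eqs, eval x Q = 0) → eval x (P j) = 0) ∧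
      LinearIndependent ℂ (fun j => fun i => eval y (pderiv i (P j)) : Fin r → Fin N → ℂ) ∧
      ∃ O : Set (Fin N → ℂ), IsOpen O ∧ y ∈ O ∧
        ∀ x ∈ O, (∀ j, eval x (P j) = 0) → ∀ Q ∈ eqs, eval x Q = 0
  /-- `ℂˣ` acts freely on `U` (so that `𝒪(1)` is a line bundle on `X = U/ℂˣ`). -/
  free : ∀ y : Fin N → ℂ, y ≠ 0 → (∀ P ∈ eqs, eval y P = 0) →
    ∀ t : ℂ, t ≠ 0 → act w t y = y → t = 1
  /-- `X` is connected. -/
  connected : IsConnected {y : Fin N → ℂ | y ≠ 0 ∧ ∀ P ∈ eqs, eval y P = 0}

namespace PolarizedManifold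

variable {n : ℕ} (X : PolarizedManifold n)

/-- The closed cone `Y`. -/
def Y : Set (Fin X.N → ℂ) := {y | ∀ P ∈ X.eqs, eval y P = 0}

/-- The punctured cone `U = Y ∖ {0}` (total space of `L⁻¹` minus the zero section). -/
def U : Set (Fin X.N → ℂ) := {y | y ≠ 0 ∧ ∀ P ∈ X.eqs, eval y P = 0}

/-- The tangent space of `Y` at `y` (common kernel of the differentials of the polynomials which
vanish on `Y`). -/
def tangent (y : Fin X.N → ℂ) : Submodule ℂ (Fin X.N → ℂ) where
  carrier := {v | ∀ P : MvPolynomial (Fin X.N) ℂ, (∀ x ∈ X.Y, eval x P = 0) → dpoly P y v = 0}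
  add_mem' := by
    intro a b ha hb P hP
    have h1 := ha P hP
    have h2 := hb P hP
    simp only [dpoly, Pi.add_apply, mul_add, Finset.sum_add_distrib] at *
    rw [h1, h2, add_zero]
  zero_mem' := by
    intro P _
    simp [dpoly]
  smul_mem' := by
    intro c a ha P hP
    have h1 := ha P hP
    simp only [dpoly, Pi.smul_apply, smul_eq_mul] at *
    have : ∑ i, eval y (pderiv i P) * (c * a i) = c * ∑ i, eval y (pderiv i P) * a i := by
      rw [Finset.mul_sum]
      exact Finset.sum_congr rfl fun i _ => by ring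
    rw [this, h1, mul_zero]

/-- A global section of `K_X + mL`: a holomorphic `(n+1)`-form on `U`, homogeneous of degree `m`.
(`form y` is an alternating form on the ambient space; only its values on tangent vectors of `U`
matter.) -/
structure Section (m : ℕ) where
  form : (Fin X.N → ℂ) → ((Fin X.N → ℂ) [⋀^Fin (n + 1)]→L[ℂ] ℂ)
  /-- holomorphic: locally the restriction to `U` of a holomorphic form of the ambient space -/
  holomorphic : ∀ y ∈ X.U, ∃ (O : Set (Fin X.N → ℂ))
    (ω : (Fin X.N → ℂ) → ((Fin X.N → ℂ) [⋀^Fin (n + 1)]→L[ℂ] ℂ)),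
    IsOpen O ∧ y ∈ O ∧ DifferentiableOn ℂ ω O ∧
      ∀ x ∈ O ∩ X.U, ∀ v : Fin (n + 1) → (Fin X.N → ℂ), (∀ k, v k ∈ X.tangent x) →
        form x v = ω x v
  /-- homogeneous of degree `m` under `ℂˣ` -/
  homogeneous : ∀ t : ℂ, t ≠ 0 → ∀ y ∈ X.U, ∀ v : Fin (n + 1) → (Fin X.N → ℂ),
    (∀ k, v k ∈ X.tangent y) →
      form (act X.w t y) (fun k => act X.w t (v k)) = t ^ m * form y v

/-- The section `σ` of `K_X + mL` does not vanish at the point of `X` under `y ∈ U`. -/
def Section.NonvanishingAt {X : PolarizedManifold n} {m : ℕ} (σ : X.Section m)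
    (y : Fin X.N → ℂ) : Prop :=
  ∃ v : Fin (n + 1) → (Fin X.N → ℂ), (∀ k, v k ∈ X.tangent y) ∧ σ.form y v ≠ 0

/-- `K_X + mL` is globally generated. -/
def AdjointFree (m : ℕ) : Prop := ∀ y ∈ X.U, ∃ σ : X.Section m, σ.NonvanishingAt y

end PolarizedManifold

/-- Fujita's freeness conjecture (all dimensions, characteristic zero). -/
def FujitaFreeness : Prop :=
  ∀ (n : ℕ), 1 ≤ n → ∀ (X : PolarizedManifold n) (m : ℕ), n + 1 ≤ m → X.AdjointFree m

end Vale.Agent.P271.Cone
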