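import Vale.Agent.P271.H207.GrSys

/-!
# P271: the blocks of the filtration of a multiplicative weight are small

`F`, `F'` filtrations of `V`, `V' ⊆ A`; multiplication by `g j` maps `V` to `V'` and raises the
weight by `c j` (`c` injective).  Then each graded piece of `V` has dimension at most
`dim V' / card ι`.
-/

set_option linter.all false

open Finset Module

namespace Vale.Agent.P271.H987

open Vale.Agent.P271.Filt Vale.Agent.P271.Filt.Wt Vale.Agent.P271.H207

variable {K : Type*} [Field K]

/-- A sum of nonzero vectors with pairwise different weights does not vanish. -/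
theorem sum_ne_zero_of_distinct {V : Type*} [AddCommGroup V] [Module K V] (F : Wt K V)
    {ι : Type*} (s : Finset ι) (hs : s.Nonempty) (x : ι → V) (hx : ∀ j ∈ s, x j ≠ 0)
    (hw : ∀ j ∈ s, ∀ k ∈ s, j ≠ k → F.w (x j) ≠ F.w (x k)) : ∑ j ∈ s, x j ≠ 0 := by
  classical
  obtain ⟨j0, hj0, hmin⟩ := s.exists_min_image (fun j => F.w (x j)) hs
  rw [← Finset.add_sum_erase s x hj0]
  by_cases hy : ∑ j ∈ s.erase j0, x j = 0
  · rw [hy, add_zero]
    exact hx j0 hj0
  · have hlt : ∀ j ∈ s.erase j0, F.w (x j0) < F.w (x j) := by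
      intro j hj
      rw [Finset.mem_erase] at hj
      exact lt_of_le_of_ne (hmin j hj.2) (hw j0 hj0 j hj.2 (Ne.symm hj.1))
    have hne : (s.erase j0).Nonempty := by
      by_contra h
      rw [Finset.not_nonempty_iff_eq_empty] at h
      exact hy (by rw [h, Finset.sum_empty])
    obtain ⟨j1, hj1, hmin1⟩ := (s.erase j0).exists_min_image (fun j => F.w (x j)) hne
    have h1 : F.w (x j1) ≤ F.w (∑ j ∈ s.erase j0, x j) :=
      F.le_w_sum _ _ _ (fun j hj _ => hmin1 j hj) hy
    exact (F.w_add_of_lt (hx j0 hj0) hy (lt_of_lt_of_le (hlt j1 hj1) h1)).1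

/-- **Block bound.** -/
theorem block_bound {A : Type*} [CommRing A] [Algebra K A] [IsDomain A] {V V' : Submodule K A}
    [FiniteDimensional K V] [FiniteDimensional K V'] (F : Wt K V) (F' : Wt K V')
    {ι : Type*} [Fintype ι] (g : ι → A) (c : ι → ℝ) (hc : Function.Injective c)
    (hmem : ∀ j, ∀ s ∈ V, g j * s ∈ V') (hne : ∀ j, g j ≠ 0)
    (hw : ∀ (j : ι) (s : V), s ≠ 0 → F'.w ⟨g j * (s : A), hmem j s s.2⟩ = F.w s + c j)
    (a : ℝ) :
    (Fintype.card ι : ℝ) * ((finrank K (F.sub a) : ℝ) - finrank K (F.subGt a)) ≤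
      finrank K V' := by
  classical
  set b := F.adb with hbdef
  have hb : F.Adapted b := F.adapted_adb
  set I := {i // F.w (b i) = a} with hI
  have hcard : ((finrank K (F.sub a) : ℝ) - finrank K (F.subGt a)) = (Fintype.card I : ℝ) := by
    rw [finrank_sub hb, finrank_subGt hb]
    have h1 : (Finset.univ.filter (fun i => a ≤ F.w (b i))).card =
        (Finset.univ.filter (fun i => F.w (b i) = a)).card +
          (Finset.univ.filter (fun i => a < F.w (b i))).card := by
      rw [← Finset.card_union_of_disjoint]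
      · congr 1
        ext i
        simp only [Finset.mem_filter, Finset.mem_univ, true_and, Finset.mem_union]
        rw [le_iff_eq_or_lt, eq_comm]
      · rw [Finset.disjoint_left]
        intro i hi hi'
        rw [Finset.mem_filter] at hi hi'
        rw [hi.2] at hi'
        exact lt_irrefl _ hi'.2
    rw [h1, Fintype.card_subtype]
    push_cast
    ring
  rw [hcard]
  -- the family of products
  set f : ι × I → V' := fun p => ⟨g p.1 * ((b p.2.1 : V) : A), hmem p.1 _ (b p.2.1).2⟩ with hf
  have hli : LinearIndependent K f := by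
    rw [Fintype.linearIndependent_iff]
    intro l hl
    by_contra hcon
    push Not at hcon
    obtain ⟨⟨j0, i0⟩, h0⟩ := hcon
    set x : ι → V := fun j => ∑ i : I, l (j, i) • b i.1 with hxdef
    have hxrepr : ∀ j (i : I), b.repr (x j) i.1 = l (j, i) := by
      intro j i
      rw [hxdef]
      simp only [map_sum, map_smul, Basis.repr_self, Finsupp.coe_finset_sum, Finset.sum_apply,
        Finsupp.smul_apply, smul_eq_mul]
      rw [Finset.sum_eq_single i]
      · simp
      · intro i' _ hi'
        rw [Finsupp.single_apply, if_neg, mul_zero]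
        intro h
        exact hi' (Subtype.ext h)
      · intro h
        exact absurd (Finset.mem_univ i) h
    have hxw : ∀ j, x j ≠ 0 → F.w (x j) = a := by
      intro j hj
      apply le_antisymm
      · -- some coefficient is nonzero
        obtain ⟨i, hi⟩ : ∃ i : I, l (j, i) ≠ 0 := by
          by_contra h
          push Not at h
          apply hj
          rw [hxdef]
          exact Finset.sum_eq_zero fun i _ => by rw [h i, zero_smul]
        have h2 := hb (x j) i.1 (by rw [hxrepr]; exact hi)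
        rwa [i.2] at h2
      · have h3 : x j ∈ F.sub a := by
          rw [hxdef]
          refine Submodule.sum_mem _ fun i _ => Submodule.smul_mem _ _ ?_
          intro _
          exact i.2.ge
        exact h3 hj
    set s : Finset ι := Finset.univ.filter (fun j => x j ≠ 0) with hs
    have hs0 : s.Nonempty := by
      refine ⟨j0, ?_⟩
      rw [hs, Finset.mem_filter]
      refine ⟨Finset.mem_univ _, ?_⟩
      intro h
      apply h0
      rw [← hxrepr j0 i0, h]
      simp
    set y : ι → V' := fun j => ⟨g j * ((x j : V) : A), hmem j _ (x j).2⟩ with hy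
    have hsum : ∑ j, y j = 0 := by
      apply Subtype.ext
      have h4 := congrArg (Subtype.val) hl
      simp only [Submodule.coe_sum, Submodule.coe_smul, ZeroMemClass.coe_zero, hf] at h4
      rw [ZeroMemClass.coe_zero, Submodule.coe_sum, ← h4, Fintype.sum_prod_type]
      refine Finset.sum_congr rfl fun j _ => ?_
      simp only [hy, hxdef, Submodule.coe_sum, Submodule.coe_smul, Finset.mul_sum,
        mul_smul_comm]
    have hsum' : ∑ j ∈ s, y j = 0 := by
      rw [← hsum]
      refine Finset.sum_subset (Finset.subset_univ _) ?_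
      intro j _ hj
      rw [hs, Finset.mem_filter] at hj
      push Not at hj
      have := hj (Finset.mem_univ _)
      apply Subtype.ext
      simp [hy, this]
    refine sum_ne_zero_of_distinct F' s hs0 y ?_ ?_ hsum'
    · intro j hj h
      rw [hs, Finset.mem_filter] at hj
      have h5 := congrArg Subtype.val h
      simp only [hy, ZeroMemClass.coe_zero, mul_eq_zero] at h5
      rcases h5 with h5 | h5
      · exact hne j h5
      · exact hj.2 (Subtype.ext h5)
    · intro j hj k hk hjk
      rw [hs, Finset.mem_filter] at hj hk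
      rw [hy]
      simp only
      rw [hw j (x j) hj.2, hw k (x k) hk.2, hxw j hj.2, hxw k hk.2]
      intro h
      exact hjk (hc (add_left_cancel h))
  have h6 := hli.fintype_card_le_finrank
  rw [Fintype.card_prod] at h6
  exact_mod_cast h6

section Graded

variable {A : Type*} [CommRing A] [Algebra K A]

/-- Products with powers of two elements of level `a`. -/
theorem pow_mul_mem (V : ℕ → Submodule K A)
    (mul_mem : ∀ M M' : ℕ, ∀ g ∈ V M', ∀ s ∈ V M, g * s ∈ V (M + M')) {a m : ℕ} {y y0 : A}
    (hy : y ∈ V a) (hy0 : y0 ∈ V a) {s : A} (hs : s ∈ V m) (p q : ℕ) :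
    y ^ p * y0 ^ q * s ∈ V (m + (p + q) * a) := by
  induction p with
  | zero =>
    induction q with
    | zero => simpa using hs
    | succ q ih =>
      have h := mul_mem _ _ y0 hy0 _ ih
      have e1 : y0 * (y ^ 0 * y0 ^ q * s) = y ^ 0 * y0 ^ (q + 1) * s := by ring
      have e2 : m + (0 + q) * a + a = m + (0 + (q + 1)) * a := by ring
      rwa [e1, e2] at h
  | succ p ih =>
    have h := mul_mem _ _ y hy _ ih
    have e1 : y * (y ^ p * y0 ^ q * s) = y ^ (p + 1) * y0 ^ q * s := by ring
    have e2 : m + (p + q) * a + a = m + (p + 1 + q) * a := by ring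
    rwa [e1, e2] at h

theorem w_congr_level {V : ℕ → Submodule K A} (F : ∀ M, Wt K (V M)) {M M' : ℕ} (h : M = M')
    {x : A} (hx : x ∈ V M) (hx' : x ∈ V M') : (F M).w ⟨x, hx⟩ = (F M').w ⟨x, hx'⟩ := by
  subst h
  rfl

theorem w_congr_elt {V : ℕ → Submodule K A} (F : ∀ M, Wt K (V M)) {M : ℕ}
    {x x' : A} (h : x = x') (hx : x ∈ V M) (hx' : x' ∈ V M) :
    (F M).w ⟨x, hx⟩ = (F M).w ⟨x', hx'⟩ := by
  subst h
  rfl

variable [IsDomain A]

theorem w_pow_mul (V : ℕ → Submodule K A)
    (mul_mem : ∀ M M' : ℕ, ∀ g ∈ V M', ∀ s ∈ V M, g * s ∈ V (M + M')) (F : ∀ M, Wt K (V M))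
    (hv : ∀ (M M' : ℕ) (g : V M') (s : V M), g ≠ 0 → s ≠ 0 →
      (F (M + M')).w ⟨(g : A) * s, mul_mem M M' g g.2 s s.2⟩ = (F M).w s + (F M').w g)
    {a m : ℕ} {y y0 : A} (hy : y ∈ V a) (hy0 : y0 ∈ V a) (hyne : y ≠ 0) (hy0ne : y0 ≠ 0)
    {s : A} (hs : s ∈ V m) (hsne : s ≠ 0) (p q : ℕ) :
    (F (m + (p + q) * a)).w ⟨y ^ p * y0 ^ q * s, pow_mul_mem V mul_mem hy hy0 hs p q⟩ =
      (F m).w ⟨s, hs⟩ + p * (F a).w ⟨y, hy⟩ + q * (F a).w ⟨y0, hy0⟩ := by
  induction p with
  | zero =>
    induction q with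
    | zero =>
      rw [w_congr_level F (show m + (0 + 0) * a = m by ring) _ (by simpa using hs),
        w_congr_elt F (show y ^ 0 * y0 ^ 0 * s = s by ring) _ hs]
      simp
    | succ q ih =>
      have hm := pow_mul_mem V mul_mem hy hy0 hs 0 q
      have hne : (⟨y ^ 0 * y0 ^ q * s, hm⟩ : V (m + (0 + q) * a)) ≠ 0 := by
        intro h
        have := congrArg Subtype.val h
        simp only [ZeroMemClass.coe_zero, mul_eq_zero, pow_eq_zero_iff', ne_eq] at this
        tauto
      have h := hv (m + (0 + q) * a) a ⟨y0, hy0⟩ ⟨_, hm⟩ (fun h => hy0ne (congrArg Subtype.val h))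
        hne
      rw [ih] at h
      rw [w_congr_level F (show m + (0 + (q + 1)) * a = m + (0 + q) * a + a by ring) _
        (by
          have := pow_mul_mem V mul_mem hy hy0 hs 0 (q + 1)
          rwa [show m + (0 + (q + 1)) * a = m + (0 + q) * a + a by ring] at this),
        w_congr_elt F (show y ^ 0 * y0 ^ (q + 1) * s = y0 * (y ^ 0 * y0 ^ q * s) by ring) _
          (mul_mem _ _ y0 hy0 _ hm), h]
      push_cast
      ring
  | succ p ih =>
    have hm := pow_mul_mem V mul_mem hy hy0 hs p q
    have hne : (⟨y ^ p * y0 ^ q * s, hm⟩ : V (m + (p + q) * a)) ≠ 0 := by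
      intro h
      have := congrArg Subtype.val h
      simp only [ZeroMemClass.coe_zero, mul_eq_zero, pow_eq_zero_iff', ne_eq] at this
      tauto
    have h := hv (m + (p + q) * a) a ⟨y, hy⟩ ⟨_, hm⟩ (fun h => hyne (congrArg Subtype.val h)) hne
    rw [ih] at h
    rw [w_congr_level F (show m + (p + 1 + q) * a = m + (p + q) * a + a by ring) _
      (by
        have := pow_mul_mem V mul_mem hy hy0 hs (p + 1) q
        rwa [show m + (p + 1 + q) * a = m + (p + q) * a + a by ring] at this),
      w_congr_elt F (show y ^ (p + 1) * y0 ^ q * s = y * (y ^ p * y0 ^ q * s) by ring) _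
        (mul_mem _ _ y hy _ hm), h]
    push_cast
    ring

/-- **Block bound for a multiplicative weight.**  If `y, y0` have level `a`, `v y0 = 0 < v y`, then
every graded piece of level `m` has dimension at most `N (m + J a) / (J + 1)`. -/
theorem block_bound_pow (V : ℕ → Submodule K A) (hfin : ∀ M, FiniteDimensional K (V M))
    (mul_mem : ∀ M M' : ℕ, ∀ g ∈ V M', ∀ s ∈ V M, g * s ∈ V (M + M')) (F : ∀ M, Wt K (V M))
    (hv : ∀ (M M' : ℕ) (g : V M') (s : V M), g ≠ 0 → s ≠ 0 →
      (F (M + M')).w ⟨(g : A) * s, mul_mem M M' g g.2 s s.2⟩ = (F M).w s + (F M').w g)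
    {a : ℕ} {y y0 : V a} (hyne : y ≠ 0) (hy0ne : y0 ≠ 0) (hy : 0 < (F a).w y)
    (hy0 : (F a).w y0 = 0) (m J : ℕ) (t : ℝ) :
    ((J : ℝ) + 1) * ((finrank K ((F m).sub t) : ℝ) - finrank K ((F m).subGt t)) ≤
      finrank K (V (m + J * a)) := by
  haveI := hfin m
  haveI := hfin (m + J * a)
  have hyA : (y : A) ≠ 0 := fun h => hyne (Subtype.ext h)
  have hy0A : (y0 : A) ≠ 0 := fun h => hy0ne (Subtype.ext h)
  have hJ : ∀ j : Fin (J + 1), (j : ℕ) + (J - j) = J := fun j => by omega
  have hmem : ∀ j : Fin (J + 1), ∀ s ∈ V m,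
      ((y : A) ^ (j : ℕ) * (y0 : A) ^ (J - j)) * s ∈ V (m + J * a) := by
    intro j s hs
    have := pow_mul_mem V mul_mem y.2 y0.2 hs (j : ℕ) (J - j)
    rwa [hJ j] at this
  have h := block_bound (F m) (F (m + J * a)) (ι := Fin (J + 1))
    (fun j => (y : A) ^ (j : ℕ) * (y0 : A) ^ (J - j)) (fun j => (j : ℕ) * (F a).w y)
    (by
      intro j k hjk
      have : ((j : ℕ) : ℝ) = (k : ℕ) := mul_right_cancel₀ hy.ne' hjk
      exact Fin.ext (by exact_mod_cast this))
    hmem (fun j => mul_ne_zero (pow_ne_zero _ hyA) (pow_ne_zero _ hy0A))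
    (by
      intro j s hs
      have hsA : (s : A) ≠ 0 := fun h => hs (Subtype.ext h)
      have h1 := w_pow_mul V mul_mem F hv y.2 y0.2 hyA hy0A s.2 hsA (j : ℕ) (J - j)
      rw [w_congr_level F (show m + ((j : ℕ) + (J - j)) * a = m + J * a by rw [hJ j]) _
        (hmem j s s.2)] at h1
      rw [h1]
      have h2 : (F a).w ⟨(y0 : A), y0.2⟩ = 0 := hy0
      rw [h2, mul_zero, add_zero])
    t
  rw [Fintype.card_fin] at h
  push_cast at h
  exact h

end Graded

end Vale.Agent.P271.H987
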