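import Vale.Agent.P271.H741.Chart

/-!
P271 / GlobGen (helper987): adding a family to a weight.
-/

open MeasureTheory Filter Topology Metric
open scoped ENNReal NNReal

namespace Vale.Agent.P271.H987

open Vale.Agent.P271.Sch Vale.Agent.P271.H741

variable {n : ℕ} {C : GCone n}

/-- The weight `w` with one more family `t` of elements of degree `d`, with exponent `κ`. -/
noncomputable def addFam (w : RWeight C) {s : ℕ} (t : Fin s → C.R) (d : ℕ) (κ : ℝ)
    (ht : ∀ j, t j ∈ C.A d) (hκ : 0 ≤ κ) (hne : ∃ j, t j ≠ 0) : RWeight C where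
  r := w.r + 1
  s := Fin.cons s w.s
  g := Fin.cases t w.g
  d := Fin.cons d w.d
  κ := Fin.cons κ w.κ
  mem := by
    intro a
    refine Fin.cases ?_ ?_ a
    · exact ht
    · intro i
      exact w.mem i
  nonneg := by
    intro a
    refine Fin.cases ?_ ?_ a
    · exact hκ
    · intro i
      exact w.nonneg i
  ne := by
    intro a
    refine Fin.cases ?_ ?_ a
    · exact hne
    · intro i
      exact w.ne i

variable (w : RWeight C) {s : ℕ} (t : Fin s → C.R) (d : ℕ) (κ : ℝ)
    (ht : ∀ j, t j ∈ C.A d) (hκ : 0 ≤ κ) (hne : ∃ j, t j ≠ 0)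

theorem addFam_deg : (addFam w t d κ ht hκ hne).deg = κ * d + w.deg := by
  unfold RWeight.deg addFam
  rw [Fin.sum_univ_succ]
  simp only [Fin.cons_zero, Fin.cons_succ]

theorem addFam_val (χ : C.Pt) : (addFam w t d κ ht hκ hne).val χ =
    (ENNReal.ofReal (∑ j, ‖χ (t j)‖ ^ 2)) ^ (-κ) * w.val χ := by
  unfold RWeight.val addFam
  rw [Fin.prod_univ_succ]
  rfl

end Vale.Agent.P271.H987
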