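import Vale.Agent.P271.H311.GlobEnd
import Vale.Agent.P271.GLOB.Cond
import Vale.Agent.P271.H58.Sep
import Vale.Agent.P271.H965.Denom
import Vale.Agent.P271.H553.IntTact
import Vale.Agent.P271.H965.JcBound
import Vale.Agent.P271.Inst.GChart
import Vale.Agent.P271.Inst.Null
import Vale.Agent.P271.H987.GenW

/-!
P271 / GlobGen (helper987): lemmas on local integrability.
-/

open MeasureTheory Filter Topology Metric
open scoped ENNReal NNReal Vale.Agent.P271.Inst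

namespace Vale.Agent.P271.H987

open Vale.Agent.P282.L2 Vale.Agent.P271.Sch Vale.Agent.P271.H741 Vale.Agent.P271.Inst

/-- Comparison almost everywhere. -/
theorem lint_mono_ae {m : ℕ} {a : Fin m → ℂ} {g g' : (Fin m → ℂ) → ℝ≥0∞} (h : LInt a g)
    (hg : ∀ᶠ x in 𝓝 a ⊓ ae (volume : Measure (Fin m → ℂ)), g' x ≤ g x) : LInt a g' := by
  obtain ⟨U, hU, hI⟩ := h
  obtain ⟨V, hV, N, hN, hVN⟩ := Filter.mem_inf_iff.1 hg
  obtain ⟨W, hW, hWo, haW⟩ := _root_.mem_nhds_iff.1 (Filter.inter_mem hU hV)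
  refine ⟨W, hWo.mem_nhds haW, lt_of_le_of_lt ?_ hI⟩
  have h1 : ∫⁻ x in W, g' x ≤ ∫⁻ x in W, g x := by
    refine lintegral_mono_ae ?_
    rw [ae_restrict_iff' hWo.measurableSet]
    filter_upwards [hN] with x hx hxW
    have h2 : x ∈ V ∩ N := ⟨(hW hxW).2, hx⟩
    rw [← hVN] at h2
    exact h2
  exact h1.trans (lintegral_mono_set fun x hx => (hW hx).1)

variable {n : ℕ} {C : GCone n}

/-- Multiplication by the square of a function. -/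
theorem intAt_mul_sq {φ : C.Pt} (c : Chart φ (n + 1)) {f : C.Pt → ℝ≥0∞}
    (hf : IntAt (n + 1) φ f) (g : C.R) :
    IntAt (n + 1) φ (fun χ => ENNReal.ofReal (‖χ g‖ ^ 2) * f χ) := by
  have h1 : IntAt (n + 1) φ (fun χ => ENNReal.ofReal ((‖φ g‖ + 1) ^ 2) * f χ) :=
    hf.const_mul ENNReal.ofReal_ne_top
  refine c.intAt_mono h1 ?_
  have h2 : ContinuousAt (fun χ : C.Pt => ‖χ g‖) φ := (continuous_ev g).norm.continuousAt
  have h3 : ∀ᶠ χ : C.Pt in 𝓝 φ, ‖χ g‖ < ‖φ g‖ + 1 :=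
    h2.eventually (gt_mem_nhds (by linarith))
  filter_upwards [h3] with χ hχ
  gcongr

/-- Nonzero elements vanish on null sets in the charts. -/
theorem ae_ne {φ : C.Pt} (c : Chart φ (n + 1)) {b : C.R} (hb : b ≠ 0) :
    ∀ᶠ x in 𝓝 (0 : Fin (n + 1) → ℂ) ⊓ ae (volume : Measure (Fin (n + 1) → ℂ)),
      c.ψ x b ≠ 0 := by
  have := C.finiteType
  exact eventually_ae_ne (c.holo b 0 c.mem0) (H879.chart_inj c hb c.mem0)

/-- The tube data at another point. -/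
def moveTube [Algebra (Pol (n + 1)) C.K] [IsScalarTower ℂ (Pol (n + 1)) C.K]
    [FaithfulSMul (Pol (n + 1)) C.K] {V : Cov C} {φ₀ χ : C.Pt} (T : Tube V φ₀)
    (h : T.Good χ) : Tube V χ where
  r := T.r
  x := T.x
  w := T.w
  x_mem := T.x_mem
  gen := T.gen
  i0 := T.i0
  i1 := T.i1
  hw := T.hw
  ne0 := h.1
  ne1 := h.2
  reg0 := T.reg0
  reg1 := T.reg1

/-- Off the orbit: the estimate of `g = u f v^{n+1}` by the form `f dz`. -/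
theorem off_bound [Algebra (Pol (n + 1)) C.K] [IsScalarTower ℂ (Pol (n + 1)) C.K]
    [FaithfulSMul (Pol (n + 1)) C.K] (V : Cov C) {φ : C.Pt} (hφ : GCone.NV φ)
    (c : Chart φ (n + 1)) {D : Fin (n + 1) → Derivation ℂ C.K C.K} (hD : ∀ k, Glob.PresR (D k))
    {u v w₁ a b g : C.R}
    (hDz : ∀ i j, D i (algebraMap C.R C.K (V.z j)) = if i = j then algebraMap C.R C.K v else 0)
    (hw : w₁ = u * v ^ (n + 1)) (hb : b ≠ 0) (hg : b * g = w₁ * a)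
    {r : ℕ} {t : Fin r → C.R} {κ : ℝ} (hκ : 0 ≤ κ) {f : C.Pt → ℝ≥0∞}
    (h : LInt 0 fun x => ENNReal.ofReal (‖c.ψ x a / c.ψ x b * V.jc c x‖ ^ 2) *
      ((ENNReal.ofReal (∑ j, ‖c.ψ x (t j)‖ ^ 2)) ^ (-κ) * f (c.ψ x))) :
    IntAt (n + 1) φ (fun χ => ENNReal.ofReal (‖χ g‖ ^ 2) * f χ) := by
  rw [c.intAt_iff]
  obtain ⟨B, hB⟩ := H965.jc_bound V hφ c hD hDz
  -- bounds
  have hcu : ContinuousAt (fun x => ‖c.ψ x u‖) 0 := (c.holo u 0 c.mem0).continuousAt.norm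
  have hu : ∀ᶠ x in 𝓝 (0 : Fin (n + 1) → ℂ), ‖c.ψ x u‖ < ‖c.ψ 0 u‖ + 1 :=
    hcu.eventually (gt_mem_nhds (by linarith))
  have hct : ContinuousAt (fun x => ∑ j, ‖c.ψ x (t j)‖ ^ 2) (0 : Fin (n + 1) → ℂ) :=
    tendsto_finsetSum _ fun j _ => ((c.holo (t j) 0 c.mem0).continuousAt.norm.pow 2)
  set S : ℝ := ∑ j, ‖c.ψ 0 (t j)‖ ^ 2 + 1 with hS
  have hS0 : 0 < S := by positivity
  have ht : ∀ᶠ x in 𝓝 (0 : Fin (n + 1) → ℂ), ∑ j, ‖c.ψ x (t j)‖ ^ 2 < S :=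
    hct.eventually (gt_mem_nhds (by rw [hS]; linarith))
  set A : ℝ≥0∞ := ENNReal.ofReal (((‖c.ψ 0 u‖ + 1) * |B|) ^ 2) with hA
  set E : ℝ≥0∞ := (ENNReal.ofReal S) ^ κ with hE
  have hEtop : E ≠ ⊤ := ENNReal.rpow_ne_top_of_nonneg hκ ENNReal.ofReal_ne_top
  have h1 := h.const_mul (C := A * E) (ENNReal.mul_ne_top ENNReal.ofReal_ne_top hEtop)
  refine lint_mono_ae h1 ?_
  filter_upwards [ae_ne c hb, Filter.Eventually.filter_mono inf_le_left hB,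
    Filter.Eventually.filter_mono inf_le_left hu,
    Filter.Eventually.filter_mono inf_le_left ht] with x hx1 hx2 hx3 hx4
  -- the value of `g`
  have e1 : c.ψ x g = c.ψ x u * c.ψ x (v ^ (n + 1)) * (c.ψ x a / c.ψ x b) := by
    have e2 : c.ψ x b * c.ψ x g = c.ψ x u * c.ψ x (v ^ (n + 1)) * c.ψ x a := by
      rw [← map_mul, hg, hw, map_mul, map_mul]
    field_simp
    linear_combination e2
  have e3 : ‖c.ψ x g‖ ≤ ((‖c.ψ 0 u‖ + 1) * |B|) * ‖c.ψ x a / c.ψ x b * V.jc c x‖ := by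
    rw [e1, norm_mul, norm_mul, norm_mul]
    have e4 : ‖c.ψ x (v ^ (n + 1))‖ ≤ |B| * ‖V.jc c x‖ :=
      hx2.trans (mul_le_mul_of_nonneg_right (le_abs_self B) (norm_nonneg _))
    calc ‖c.ψ x u‖ * ‖c.ψ x (v ^ (n + 1))‖ * ‖c.ψ x a / c.ψ x b‖
        ≤ (‖c.ψ 0 u‖ + 1) * (|B| * ‖V.jc c x‖) * ‖c.ψ x a / c.ψ x b‖ := by gcongr
      _ = _ := by ring
  have e5 : ENNReal.ofReal (‖c.ψ x g‖ ^ 2) ≤
      A * ENNReal.ofReal (‖c.ψ x a / c.ψ x b * V.jc c x‖ ^ 2) := by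
    rw [hA, ← ENNReal.ofReal_mul (by positivity), ← mul_pow]
    exact ENNReal.ofReal_le_ofReal (pow_le_pow_left₀ (norm_nonneg _) e3 2)
  have e6 : 1 ≤ E * (ENNReal.ofReal (∑ j, ‖c.ψ x (t j)‖ ^ 2)) ^ (-κ) := by
    rw [ENNReal.rpow_neg, hE]
    have e7 : (ENNReal.ofReal (∑ j, ‖c.ψ x (t j)‖ ^ 2)) ^ κ ≤ (ENNReal.ofReal S) ^ κ :=
      ENNReal.rpow_le_rpow (ENNReal.ofReal_le_ofReal hx4.le) hκ
    rw [← div_eq_mul_inv]
    rcases eq_or_ne ((ENNReal.ofReal (∑ j, ‖c.ψ x (t j)‖ ^ 2)) ^ κ) 0 with h0 | h0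
    · rw [h0, ENNReal.div_zero]
      · exact le_top
      · rw [← pos_iff_ne_zero]
        exact ENNReal.rpow_pos (ENNReal.ofReal_pos.2 hS0) ENNReal.ofReal_ne_top
    · rw [ENNReal.le_div_iff_mul_le (Or.inl h0) (Or.inr hEtop), one_mul]
      exact e7
  calc ENNReal.ofReal (‖c.ψ x g‖ ^ 2) * f (c.ψ x)
      ≤ (A * ENNReal.ofReal (‖c.ψ x a / c.ψ x b * V.jc c x‖ ^ 2)) * (1 * f (c.ψ x)) := by
        rw [one_mul]; gcongr
    _ ≤ (A * ENNReal.ofReal (‖c.ψ x a / c.ψ x b * V.jc c x‖ ^ 2)) *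
        ((E * (ENNReal.ofReal (∑ j, ‖c.ψ x (t j)‖ ^ 2)) ^ (-κ)) * f (c.ψ x)) := by
        gcongr
    _ = _ := by ring

end Vale.Agent.P271.H987
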