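import Vale.Agent.P271.H987.GenAux
import Vale.Agent.P271.H70.GenCover
import Vale.Agent.P271.H408.NonInt

/-!
P271 / GlobGen (helper987): global generation of the multiplier ideals in bounded degree.
-/

open MeasureTheory Filter Topology Metric
open scoped ENNReal NNReal Vale.Agent.P271.Inst

namespace Vale.Agent.P271.H987

open Vale.Agent.P282.L2 Vale.Agent.P271.Sch Vale.Agent.P271.H741 Vale.Agent.P271.Inst

variable {n : ℕ} {C : GCone n}

/-- The hypothesis of the global theorem: off the orbit the family `t` does not vanish. -/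
theorem eventually_intAt_mul {φ : C.Pt} (w : RWeight C) (hw : IntAt (n + 1) φ w.val)
    (hφ : GCone.NV φ) {r : ℕ} (t : Fin r → C.R)
    (hsep : ∀ χ, GCone.NV χ → (∀ j, χ (t j) = 0) → ∃ c : ℂ, c ≠ 0 ∧ χ = GCone.tact c φ) (κ : ℝ)
    (hκ : 0 ≤ κ) : ∀ᶠ χ in 𝓝 φ, (∀ t : ℂ, t ≠ 0 → GCone.tact t φ ≠ χ) →
      IntAt (n + 1) χ (fun y => (ENNReal.ofReal (∑ j, ‖y (t j)‖ ^ 2)) ^ (-κ) * w.val y) := by
  obtain ⟨c⟩ := nonempty_chart hφ
  filter_upwards [eventually_NV hφ, c.eventually_intAt hw] with χ hχ hχw hno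
  obtain ⟨j, hj⟩ : ∃ j, χ (t j) ≠ 0 := by
    by_contra h
    push Not at h
    obtain ⟨c, hc, hcχ⟩ := hsep χ hχ h
    exact hno c hc hcχ.symm
  obtain ⟨c'⟩ := nonempty_chart hχ
  have h0 : 0 < ‖χ (t j)‖ := norm_pos_iff.2 hj
  have h1 : IntAt (n + 1) χ
      (fun y => (ENNReal.ofReal ((‖χ (t j)‖ / 2) ^ 2)) ^ (-κ) * w.val y) := by
    refine hχw.const_mul ?_
    rw [ENNReal.ofReal_rpow_of_pos (by positivity)]
    exact ENNReal.ofReal_ne_top
  refine c'.intAt_mono h1 ?_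
  have h2 : ContinuousAt (fun y : C.Pt => ‖y (t j)‖) χ := (continuous_ev (t j)).norm.continuousAt
  have h3 : ∀ᶠ y : C.Pt in 𝓝 χ, ‖χ (t j)‖ / 2 < ‖y (t j)‖ :=
    h2.eventually (lt_mem_nhds (by linarith))
  filter_upwards [h3] with y hy
  have h4 : (‖χ (t j)‖ / 2) ^ 2 ≤ ∑ j, ‖y (t j)‖ ^ 2 := by
    have h5 : ‖y (t j)‖ ^ 2 ≤ ∑ j, ‖y (t j)‖ ^ 2 :=
      Finset.single_le_sum (f := fun j => ‖y (t j)‖ ^ 2) (fun i _ => by positivity)
        (Finset.mem_univ j)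
    refine le_trans ?_ h5
    gcongr
  gcongr ?_ * _
  rw [ENNReal.rpow_neg, ENNReal.rpow_neg]
  gcongr

/-- One step: one bound for the degree at all the points where `s` does not vanish. -/
theorem local_step (hn : 1 ≤ n) (hL : Br.L2Reg) (hcore : CoreStatement) (cc : ℝ) {m₁ : ℕ}
    (hm₁ : ∀ φ : C.Pt, GCone.NV φ → ∃ (r : ℕ) (t : Fin r → C.R), (∀ j, t j ∈ C.A m₁) ∧
      (∀ j, φ (t j) = 0) ∧ (∀ χ : C.Pt, GCone.NV χ → (∀ j, χ (t j) = 0) →
        ∃ c : ℂ, c ≠ 0 ∧ χ = GCone.tact c φ) ∧ (1 ≤ n → ∃ j, t j ≠ 0))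
    {φ₀ : C.Pt} (hφ₀ : GCone.NV φ₀) (P : Np C φ₀) :
    ∃ s : C.R, φ₀ s ≠ 0 ∧ ∃ M0, ∀ M ≥ M0, ∀ χ : C.Pt, GCone.NV χ → χ s ≠ 0 →
      ∀ w : RWeight C, w.deg ≤ cc → IntAt (n + 1) χ w.val →
        ∃ g ∈ C.A M, χ g ≠ 0 ∧ ∀ φ' : C.Pt, GCone.NV φ' →
          IntAt (n + 1) φ' (fun χ => ENNReal.ofReal (‖χ g‖ ^ 2) * w.val χ) := by
  let _ := P.alg
  have := P.tower
  have := P.faithful
  set V := P.V
  set T := P.T
  obtain ⟨D₀, hD₀, -, hJ, hJi⟩ := P.etale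
  obtain ⟨D, u, v, w₁, i, j, k, hD, hu, hv, hw, hDz, hu0, hv0, hw0, hwe, hjac, hcond⟩ :=
    Glob.exists_cond V hφ₀ hD₀ hJ hJi (H965.exists_denom V hn)
  obtain ⟨K0, hK0⟩ := H70.exists_mon (T.x_mem T.i0) (by rw [← T.hw]; exact T.x_mem T.i1)
  set m : ℕ := ⌊((n : ℝ) + 1) * m₁ + cc⌋₊ + 1 with hm
  refine ⟨T.x T.i0 * T.x T.i1 * w₁, ?_, K0 + k + m, fun M hM χ hχ hχs w hwd hwi => ?_⟩
  · rw [map_mul, map_mul]
    exact mul_ne_zero (mul_ne_zero T.ne0 T.ne1) hw0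
  rw [map_mul, map_mul] at hχs
  have hx0 : χ (T.x T.i0) ≠ 0 := left_ne_zero_of_mul (left_ne_zero_of_mul hχs)
  have hx1 : χ (T.x T.i1) ≠ 0 := right_ne_zero_of_mul (left_ne_zero_of_mul hχs)
  have hχw : χ w₁ ≠ 0 := right_ne_zero_of_mul hχs
  -- the weight
  obtain ⟨r, t, ht, ht0, hsep, hne⟩ := hm₁ χ hχ
  have hκ : (0 : ℝ) ≤ (n : ℝ) + 1 := by positivity
  set w' : RWeight C := addFam w t m₁ ((n : ℝ) + 1) ht hκ (hne hn) with hw'
  have hval : w'.val = fun y => (ENNReal.ofReal (∑ j, ‖y (t j)‖ ^ 2)) ^ (-((n : ℝ) + 1)) *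
      w.val y := funext fun y => addFam_val w t m₁ _ ht hκ (hne hn) y
  have hdeg : w'.deg < m := by
    rw [hw', addFam_deg, hm]
    push_cast
    have := Nat.lt_floor_add_one (((n : ℝ) + 1) * m₁ + cc)
    linarith
  have hev : ∀ᶠ φ in 𝓝 χ, (∀ t : ℂ, t ≠ 0 → GCone.tact t χ ≠ φ) → IntAt (n + 1) φ w'.val := by
    rw [hval]
    exact eventually_intAt_mul w hwi hχ t hsep _ hκ
  have hnon : ¬ IntAt (n + 1) χ w'.val := by
    rw [hval]
    exact H408.not_intAt w t ht0 _ le_rfl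
  set T' : Tube V χ := moveTube T ⟨hx0, hx1⟩ with hT'
  obtain ⟨a, b, i', j', h⟩ := hcore n C V χ T' w' m hdeg hev
  -- the section
  have hreg : Glob.RegForm V.z (algebraMap C.R C.K a / algebraMap C.R C.K b) :=
    fun φ hφ D' hD' => Br.CoreOut.reg hL h hφ hD'
  obtain ⟨g, hg⟩ := hcond _ hreg
  have hbK : algebraMap C.R C.K b ≠ 0 := fun h0 => h.b_ne (Br.alg_inj (by rw [h0, map_zero]))
  have hwK : algebraMap C.R C.K w₁ ≠ 0 := Br.alg_ne hχw
  have hbg : b * g = w₁ * a := by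
    apply Br.alg_inj
    rw [map_mul, map_mul, ← hg]
    field_simp
  have hjac0 : GCone.jac V.z D ≠ 0 := by
    intro h0
    rw [h0, mul_zero] at hjac
    exact hwK hjac.symm
  have hf : GCone.RegAt χ (algebraMap C.R C.K a / algebraMap C.R C.K b) :=
    ⟨g, w₁, hχw, by rw [mul_comm]; exact hg⟩
  have hjaci : GCone.RegAt χ (GCone.jac V.z D)⁻¹ := by
    refine ⟨u, w₁, hχw, ?_⟩
    rw [← hjac]
    field_simp
  have hval' := Br.CoreOut.value h hχ hnon (fun k => (hD k).regDer χ) hjac0 hjaci hf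
  have hgχ : χ g ≠ 0 := by
    rw [Br.vl_eq hχw (by rw [mul_comm]; exact hg)] at hval'
    intro h0
    rw [h0, zero_div] at hval'
    exact zpow_ne_zero _ T'.good₀.e_ne hval'.symm
  have hg0 : g ≠ 0 := fun h0 => hgχ (by rw [h0, map_zero])
  -- its degree
  obtain ⟨hle, hgm⟩ := H70.mem_of_mul (p := k + i') h.b_mem h.b_ne hg0 (by
    rw [hbg]
    exact SetLike.mul_mem_graded hw h.a_mem)
  have hdegf := h.deg
  have hNn : 0 ≤ (n + 1) * V.N := Nat.zero_le _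
  have hge : k + i' - j' ≤ k + m := by omega
  obtain ⟨y, hy, hy0⟩ := hK0 (M - (k + i' - j')) (by omega)
  refine ⟨g * y, ?_, ?_, ?_⟩
  · have h1 := SetLike.mul_mem_graded hgm hy
    rwa [Nat.add_sub_cancel' (by omega)] at h1
  · rw [map_mul]
    exact mul_ne_zero hgχ (hy0 χ hx0 hx1)
  intro φ' hφ'
  obtain ⟨c'⟩ := nonempty_chart hφ'
  have key : IntAt (n + 1) φ' (fun χ => ENNReal.ofReal (‖χ g‖ ^ 2) * w.val χ) := by
    by_cases horb : ∃ s : ℂ, s ≠ 0 ∧ GCone.tact s χ = φ'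
    · obtain ⟨s, hs, rfl⟩ := horb
      have hs' : 0 < ‖s‖ := norm_pos_iff.2 hs
      obtain ⟨c⟩ := nonempty_chart hχ
      refine (intAt_tact_of_hom hs
        (c := ENNReal.ofReal ((‖s‖ ^ (k + i' - j')) ^ 2) *
          ENNReal.ofReal (‖s‖ ^ (-(2 * w.deg)))) ?_ ?_ ?_).2 (intAt_mul_sq c hwi g)
      · exact ENNReal.mul_ne_top ENNReal.ofReal_ne_top ENNReal.ofReal_ne_top
      · refine mul_ne_zero ?_ ?_
        · rw [Ne, ENNReal.ofReal_eq_zero, not_le]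
          positivity
        · rw [Ne, ENNReal.ofReal_eq_zero, not_le]
          positivity
      · intro y
        rw [w.val_tact hs, GCone.tact, pact_mem C.A s y hgm, norm_mul, norm_pow, mul_pow,
          ENNReal.ofReal_mul (by positivity)]
        ring
    · push Not at horb
      have h1 := h.off φ' hφ' horb c'
      rw [hval] at h1
      exact off_bound V hφ' c' hD hDz hwe h.b_ne hbg hκ h1
  have h2 := intAt_mul_sq c' key y
  refine c'.intAt_mono h2 (Filter.Eventually.of_forall fun z => ?_)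
  rw [map_mul, norm_mul, mul_pow, ENNReal.ofReal_mul (by positivity)]
  exact le_of_eq (by ring)

/-- **Global generation of the multiplier ideals in bounded degree.** -/
theorem globGen_of (hL : Br.L2Reg) (hcore : CoreStatement)
    (hnp : ∀ (n : ℕ) (C : GCone n) (φ₀ : C.Pt), GCone.NV φ₀ → Nonempty (Np C φ₀)) : GlobGen := by
  intro n hn C cc
  obtain ⟨m₁, hm₁⟩ := H58.sep C
  obtain ⟨M0, hM0⟩ := H70.exists_uniform C (fun M χ => ∀ w : RWeight C, w.deg ≤ cc →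
    IntAt (n + 1) χ w.val → ∃ g ∈ C.A M, χ g ≠ 0 ∧ ∀ φ' : C.Pt, GCone.NV φ' →
      IntAt (n + 1) φ' (fun χ => ENNReal.ofReal (‖χ g‖ ^ 2) * w.val χ)) (fun φ₀ hφ₀ => by
    obtain ⟨P⟩ := hnp n C φ₀ hφ₀
    exact local_step hn hL hcore cc (hm₁ m₁ le_rfl) hφ₀ P)
  exact ⟨M0, fun w hw φ hφ hi => hM0 M0 le_rfl φ hφ w hw hi⟩

end Vale.Agent.P271.H987
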