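import Vale.Agent.P271.H987.GlobGen
import Vale.Agent.P271.H741.Core2
import Vale.Agent.P271.H989.MkNp
import Vale.Agent.P271.H879.L2Prop

/-!
P271 / GlobGen (helper987): the theorem.
-/

namespace Vale.Agent.P271.H987

open Vale.Agent.P271.Sch Vale.Agent.P271.H741

/-- **Global generation of the multiplier ideals in bounded degree.** -/
theorem globGen : GlobGen :=
  globGen_of H879.l2Reg H741.core fun _ C φ h => H989.exists_np C φ h

end Vale.Agent.P271.H987
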