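import Vale.Agent.P271.H987.ConeModel

/-!
# P271: sanity checks of the cone model

`ℙⁿ` with `L = 𝒪(1)` is a polarised manifold in the sense of `ConeModel`; `K + (n+1)L = 𝒪` is
generated by the standard form, and `K + mL` has no nonzero section for `m ≤ n`.
-/

open MvPolynomial

namespace Vale.Agent.P271.Cone

open PolarizedManifold

/-- `ℙⁿ` with `𝒪(1)`. -/
noncomputable def projectiveSpace (n : ℕ) (hn : 1 ≤ n) : PolarizedManifold n where
  N := n + 1
  w := fun _ => 1
  w_pos := fun _ => Nat.one_pos
  eqs := ∅
  homogeneous := by simp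
  smooth := by
    intro y _ _
    refine ⟨0, Fin.elim0, by omega, fun j => Fin.elim0 j, linearIndependent_empty_type,
      Set.univ, isOpen_univ, Set.mem_univ _, by simp⟩
  free := by
    intro y hy _ t _ h
    obtain ⟨i, hi⟩ : ∃ i, y i ≠ 0 := by
      by_contra h0
      push Not at h0
      exact hy (funext h0)
    have := congrFun h i
    simp only [act, pow_one] at this
    exact mul_right_cancel₀ hi (by rw [this, one_mul])
  connected := by
    have h1 : {y : Fin (n + 1) → ℂ | y ≠ 0 ∧ ∀ P ∈ (∅ : Set (MvPolynomial (Fin (n + 1)) ℂ)),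
        eval y P = 0} = {0}ᶜ := by
      ext y
      simp
    rw [h1]
    apply isConnected_compl_singleton_of_one_lt_rank
    rw [rank_real_of_complex]
    have : Module.rank ℂ (Fin (n + 1) → ℂ) = (n + 1 : ℕ) := by
      simp
    rw [this]
    have h2 : (1 : Cardinal) < ((2 * (n + 1) : ℕ) : Cardinal) := by
      exact_mod_cast (by omega : 1 < 2 * (n + 1))
    simpa using h2

variable {n : ℕ} (hn : 1 ≤ n)

theorem mem_U_projectiveSpace {y : Fin (n + 1) → ℂ} (hy : y ≠ 0) :
    y ∈ (projectiveSpace n hn).U := ⟨hy, by intro P hP; exact absurd hP (Set.notMem_empty P)⟩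

theorem mem_tangent_projectiveSpace (y v : Fin (n + 1) → ℂ) :
    v ∈ (projectiveSpace n hn).tangent y := by
  intro P hP
  have h0 : P = 0 := by
    apply MvPolynomial.funext
    intro x
    rw [map_zero]
    exact hP x (fun Q hQ => absurd hQ (Set.notMem_empty Q))
  subst h0
  simp [dpoly]

/-- The form `dx_0 ∧ … ∧ dx_n`. -/
noncomputable def stdForm (n : ℕ) : (Fin (n + 1) → ℂ) [⋀^Fin (n + 1)]→L[ℂ] ℂ :=
  { Matrix.detRowAlternating with
    cont := by
      change Continuous fun M : Fin (n + 1) → Fin (n + 1) → ℂ => Matrix.det (Matrix.of M)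
      exact Continuous.matrix_det continuous_id }

theorem stdForm_apply (v : Fin (n + 1) → (Fin (n + 1) → ℂ)) :
    stdForm n v = Matrix.det (Matrix.of v) := rfl

theorem stdForm_act (t : ℂ) (v : Fin (n + 1) → (Fin (n + 1) → ℂ)) :
    stdForm n (fun k => act (fun _ => 1) t (v k)) = t ^ (n + 1) * stdForm n v := by
  have h1 : (fun k => act (fun _ => 1) t (v k)) = fun k => t • v k := by
    funext k i
    simp [act]
  rw [h1]
  have h4 := (stdForm n).toAlternatingMap.map_smul_univ (fun _ => t) v
  simp only [Finset.prod_const, Finset.card_univ, Fintype.card_fin, smul_eq_mul] at h4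
  exact h4

/-- `dx_0 ∧ … ∧ dx_n` as a section of `K + (n+1)L` on `ℙⁿ`. -/
noncomputable def stdSection : (projectiveSpace n hn).Section (n + 1) where
  form := fun _ => stdForm n
  holomorphic := by
    intro y _
    exact ⟨Set.univ, fun _ => stdForm n, isOpen_univ, Set.mem_univ _,
      differentiableOn_const _, fun _ _ _ _ => rfl⟩
  homogeneous := by
    intro t _ y _ v _
    exact stdForm_act t v

/-- `K + (n+1)L` is generated by its sections on `ℙⁿ`. -/
theorem projectiveSpace_adjointFree : (projectiveSpace n hn).AdjointFree (n + 1) := by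
  intro y _
  refine ⟨stdSection hn, fun k => Pi.single k 1, fun k => mem_tangent_projectiveSpace hn y _, ?_⟩
  change Matrix.det (Matrix.of fun k : Fin (n + 1) => (Pi.single k 1 : Fin (n + 1) → ℂ)) ≠ 0
  have h1 : (Matrix.of fun k : Fin (n + 1) => (Pi.single k 1 : Fin (n + 1) → ℂ)) = 1 := by
    ext i j
    simp [Matrix.one_apply, Pi.single_apply, eq_comm]
  rw [h1, Matrix.det_one]
  exact one_ne_zero

/-- `K + mL` has no section which does not vanish identically on `ℙⁿ` for `m ≤ n`. -/
theorem projectiveSpace_section_eq_zero {m : ℕ} (hm : m ≤ n)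
    (σ : (projectiveSpace n hn).Section m) (y : Fin (n + 1) → ℂ) (hy : y ≠ 0) :
    ¬ σ.NonvanishingAt y := by
  rintro ⟨v, -, hv⟩
  apply hv
  -- the coefficient function
  set e : Fin (n + 1) → (Fin (n + 1) → ℂ) := fun k => Pi.single k 1 with he
  set f : (Fin (n + 1) → ℂ) → ℂ := fun x => σ.form x e with hf
  have htan : ∀ x k, e k ∈ (projectiveSpace n hn).tangent x :=
    fun x k => mem_tangent_projectiveSpace hn x _
  have hdiff : ∀ x : Fin (n + 1) → ℂ, x ≠ 0 → DifferentiableAt ℂ f x := by
    intro x hx
    obtain ⟨O, ω, hO, hxO, hω, hform⟩ := σ.holomorphic x (mem_U_projectiveSpace hn hx)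
    have h1 : DifferentiableAt ℂ (fun x => ω x e) x := by
      have h2 := (hω x hxO).differentiableAt (hO.mem_nhds hxO)
      have h3 : (fun x => ω x e) =
          (fun g => (ContinuousAlternatingMap.apply ℂ (Fin (n + 1) → ℂ) ℂ e) g) ∘ ω := by
        funext x
        rfl
      rw [h3]
      exact (ContinuousLinearMap.differentiableAt _).comp x h2
    apply h1.congr_of_eventuallyEq
    have h4 : ∀ᶠ x' in nhds x, x' ≠ 0 := isOpen_compl_singleton.mem_nhds hx
    filter_upwards [hO.mem_nhds hxO, h4] with x' hx' hx0
    exact hform x' ⟨hx', mem_U_projectiveSpace hn hx0⟩ e (htan x')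
  have hhom : ∀ t : ℂ, t ≠ 0 → ∀ x : Fin (n + 1) → ℂ, x ≠ 0 →
      t ^ (n + 1) * f (fun i => t * x i) = t ^ m * f x := by
    intro t ht x hx
    have h1 := σ.homogeneous t ht x (mem_U_projectiveSpace hn hx) e (htan x)
    have h2 : (fun k => act (projectiveSpace n hn).w t (e k)) = fun k => t • e k := by
      funext k i
      change t ^ 1 * e k i = t * e k i
      rw [pow_one]
    have h3 : act (projectiveSpace n hn).w t x = fun i => t * x i := by
      funext i
      change t ^ 1 * x i = t * x i
      rw [pow_one]
    rw [h2, h3] at h1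
    rw [← h1]
    have h4 := (σ.form (fun i => t * x i)).toAlternatingMap.map_smul_univ (fun _ => t) e
    simp only [Finset.prod_const, Finset.card_univ, Fintype.card_fin, smul_eq_mul] at h4
    exact h4.symm
  have hf0 : f y = 0 := by
    obtain ⟨j, hj⟩ : ∃ j, y j ≠ 0 := by
      by_contra h0
      push Not at h0
      exact hy (funext h0)
    obtain ⟨i, hij⟩ : ∃ i : Fin (n + 1), i ≠ j := by
      have : Nontrivial (Fin (n + 1)) := Fin.nontrivial_iff_two_le.2 (by omega)
      exact exists_ne j
    set g : ℂ → ℂ := fun s => f (Function.update y i s) with hg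
    have hne : ∀ s : ℂ, Function.update y i s ≠ 0 := by
      intro s h0
      apply hj
      have := congrFun h0 j
      rwa [Function.update_of_ne hij.symm] at this
    have hgd : Differentiable ℂ g := by
      intro s
      have h1 : DifferentiableAt ℂ (fun s : ℂ => Function.update y i s) s := by
        rw [differentiableAt_pi]
        intro k
        by_cases hk : k = i
        · subst hk
          simp only [Function.update_self]
          exact differentiableAt_id
        · simp only [Function.update_of_ne hk]
          exact differentiableAt_const _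
      exact (hdiff _ (hne s)).comp s h1
    -- the limit point
    set e0 : Fin (n + 1) → ℂ := Pi.single i 1 with he0
    have he0' : e0 ≠ 0 := by
      intro h0
      have := congrFun h0 i
      simp [he0] at this
    have hlim : Filter.Tendsto g (Filter.cocompact ℂ) (nhds 0) := by
      have h1 : Filter.Tendsto (fun s : ℂ => s⁻¹) (Filter.cocompact ℂ) (nhds 0) :=
        Filter.tendsto_inv₀_cobounded.mono_left (by rw [Metric.cobounded_eq_cocompact])
      have h2 : Filter.Tendsto (fun s : ℂ => (fun k => s⁻¹ * Function.update y i 0 k + e0 k))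
          (Filter.cocompact ℂ) (nhds e0) := by
        rw [tendsto_pi_nhds]
        intro k
        have := (h1.mul_const (Function.update y i 0 k)).add_const (e0 k)
        simpa using this
      have h3 : Filter.Tendsto (fun s : ℂ => f (fun k => s⁻¹ * Function.update y i 0 k + e0 k))
          (Filter.cocompact ℂ) (nhds (f e0)) :=
        ((hdiff e0 he0').continuousAt.tendsto).comp h2
      have h4 : Filter.Tendsto (fun s : ℂ => (s⁻¹) ^ (n + 1 - m)) (Filter.cocompact ℂ)
          (nhds 0) := by
        have := h1.pow (n + 1 - m)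
        rwa [zero_pow (by omega)] at this
      have h5 := h4.mul h3
      rw [zero_mul] at h5
      refine h5.congr' ?_
      have h6 : ∀ᶠ s : ℂ in Filter.cocompact ℂ, s ≠ 0 := by
        have : ({0} : Set ℂ)ᶜ ∈ Filter.cocompact ℂ := isCompact_singleton.compl_mem_cocompact
        exact this
      filter_upwards [h6] with s hs
      have h7 : (fun k => s⁻¹ * Function.update y i 0 k + e0 k) =
          fun k => s⁻¹ * Function.update y i s k := by
        funext k
        by_cases hk : k = i
        · subst hk
          simp [he0, hs]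
        · simp [he0, hk]
      have h8 := hhom s⁻¹ (inv_ne_zero hs) (Function.update y i s) (hne s)
      rw [h7]
      have h9 : (s⁻¹) ^ (n + 1) = (s⁻¹) ^ m * (s⁻¹) ^ (n + 1 - m) := by
        rw [← pow_add]
        congr 1
        omega
      rw [h9, mul_assoc] at h8
      exact mul_left_cancel₀ (pow_ne_zero _ (inv_ne_zero hs)) h8
    have h1 := hgd.apply_eq_of_tendsto_cocompact (y i) hlim
    have h2 : g (y i) = f y := by
      simp [hg]
    rw [← h2]
    exact h1
  have h1 := ((σ.form y).toAlternatingMap.map_basis_eq_zero_iff (Pi.basisFun ℂ (Fin (n + 1)))).1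
    (by
      have h2 : (fun k => (Pi.basisFun ℂ (Fin (n + 1))) k) = e := by
        funext k
        simp [he]
      change (σ.form y) (fun k => (Pi.basisFun ℂ (Fin (n + 1))) k) = 0
      rw [h2]
      exact hf0)
  have h2 := congrArg (fun g => g v) h1
  exact h2

end Vale.Agent.P271.Cone
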